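import Vale.Agent.P290Z.Lat.Basic

/-!
# P247K: chains of positive triples in a lattice of signature `(3, n)`
-/

open Set Matrix MeasureTheory
open Vale.Agent.P290.H726 Vale.Agent.P290Z.Lat

namespace Vale.Agent.P247K

variable {ι : Type} [Fintype ι] {G : Matrix ι ι ℤ} {a b : Fin 3 → ι → ℝ} {x y z p : ι → ℝ}

/-- linear combinations -/
def lc (c : Fin 3 → ℝ) (a : Fin 3 → ι → ℝ) : ι → ℝ := ∑ j, c j • a j

/-- the action of a matrix on triples -/
def mul (A : Matrix (Fin 3) (Fin 3) ℝ) (a : Fin 3 → ι → ℝ) : Fin 3 → ι → ℝ := fun i => lc (A i) a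

/-- the matrix of the products -/
def gram (G : Matrix ι ι ℤ) (a b : Fin 3 → ι → ℝ) : Matrix (Fin 3) (Fin 3) ℝ :=
  Matrix.of fun i j => bil G (a i) (b j)

/-- positive triples -/
def Pos (G : Matrix ι ι ℤ) (a : Fin 3 → ι → ℝ) : Prop :=
  ∀ c : Fin 3 → ℝ, c ≠ 0 → 0 < bil G (lc c a) (lc c a)

/-- no root is orthogonal to the three vectors -/
def Free (G : Matrix ι ι ℤ) (a : Fin 3 → ι → ℝ) : Prop :=
  ∀ d : ι → ℤ, bil G d d = -2 → ∃ i, bil G (a i) (cs ℝ d) ≠ 0

theorem bil_lc (c : Fin 3 → ℝ) (a : Fin 3 → ι → ℝ) (x : ι → ℝ) :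
    bil G (lc c a) x = c ⬝ᵥ fun j => bil G (a j) x := by
  simp only [lc, bil_sum_left, bil_smul_left, dotProduct]

theorem bil_lc' (c : Fin 3 → ℝ) (a : Fin 3 → ι → ℝ) (x : ι → ℝ) :
    bil G x (lc c a) = c ⬝ᵥ fun j => bil G x (a j) := by
  simp only [lc, bil_sum_right, bil_smul_right, dotProduct]

omit [Fintype ι] in
theorem lc_mul (c : Fin 3 → ℝ) (A : Matrix (Fin 3) (Fin 3) ℝ) (a : Fin 3 → ι → ℝ) :
    lc c (mul A a) = lc (c ᵥ* A) a := by
  simp only [lc, mul, Finset.smul_sum, smul_smul, vecMul, dotProduct, Finset.sum_smul]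
  exact Finset.sum_comm

omit [Fintype ι] in
theorem mul_mul (A B : Matrix (Fin 3) (Fin 3) ℝ) (a : Fin 3 → ι → ℝ) :
    mul A (mul B a) = mul (A * B) a := funext fun _ => lc_mul _ _ _

omit [Fintype ι] in
theorem one_mul' (a : Fin 3 → ι → ℝ) : mul 1 a = a := by
  funext i; simp [mul, lc, one_apply]

omit [Fintype ι] in
theorem lc_three (c : Fin 3 → ℝ) (x y z : ι → ℝ) :
    lc c ![x, y, z] = c 0 • x + c 1 • y + c 2 • z := by simp [lc, Fin.sum_univ_three]

theorem Pos.mul (h : Pos G a) {A : Matrix (Fin 3) (Fin 3) ℝ} (hA : A.det ≠ 0) :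
    Pos G (mul A a) := fun c hc => by
  rw [lc_mul]; exact h _ fun k => hc (eq_zero_of_vecMul_eq_zero hA k)

theorem Free.mul (h : Free G a) {A : Matrix (Fin 3) (Fin 3) ℝ} (hA : A.det ≠ 0) :
    Free G (mul A a) := fun d hd => by_contra fun k => by
  obtain ⟨i, hi⟩ := h d hd
  exact hi (congrFun (eq_zero_of_mulVec_eq_zero hA (v := fun j => bil G (a j) (cs ℝ d))
    (funext fun j => (bil_lc _ _ _).symm.trans (not_not.1 (not_exists.1 k j)))) i)

theorem pos_iff (hG : ∀ i j, G i j = G j i) : Pos G a ↔ (gram G a a).PosDef := by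
  have e : ∀ c : Fin 3 → ℝ, bil G (lc c a) (lc c a) = star c ⬝ᵥ gram G a a *ᵥ c := fun c => by
    rw [bil_lc, star_trivial]
    exact congrArg _ (funext fun i => (bil_lc' _ _ _).trans (dotProduct_comm _ _))
  rw [Matrix.posDef_iff_dotProduct_mulVec]
  exact ⟨fun h => ⟨by ext i j; simp [gram, bil_symm G hG (a i)], fun c hc => e c ▸ h c hc⟩,
    fun h c hc => e c ▸ h.2 hc⟩

/-- the orthogonal complement of a positive triple is negative -/
theorem Pos.neg (hG : ∀ i j, G i j = G j i) (hs : Sig G 3) (h : Pos G a) (hx : x ≠ 0)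
    (h0 : ∀ i, bil G (a i) x = 0) : bil G x x < 0 := by
  obtain ⟨w, -, hw⟩ := hs
  let φ : (Fin 4 → ℝ) →ₗ[ℝ] (Fin 3 → ℝ) :=
    Matrix.mulVecLin (Matrix.of fun j i => bil G (Fin.cons (α := fun _ => ι → ℝ) x a i) (w j))
  obtain ⟨c, h1, h2⟩ := Submodule.exists_mem_ne_zero_of_ne_bot
    (LinearMap.ker_ne_bot_of_finrank_lt (f := φ) (by simp))
  have h3 : bil G (lc (Fin.tail c) a) x = 0 := by simp [bil_lc, h0, dotProduct]
  have h4 : bil G (c 0 • x + lc (Fin.tail c) a) (c 0 • x + lc (Fin.tail c) a) =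
      c 0 ^ 2 * bil G x x + bil G (lc (Fin.tail c) a) (lc (Fin.tail c) a) := by
    simp only [bil_add_left, bil_add_right, bil_smul_left, bil_smul_right, h3, bil_symm G hG x]
    ring
  have h5 := fun k => h4 ▸ hw (c 0 • x + lc (Fin.tail c) a) k fun j => by
    have := congrFun h1 j
    simp only [φ, mulVecLin_apply, mulVec, dotProduct, of_apply, Pi.zero_apply] at this
    rw [Fin.sum_univ_succ] at this
    simpa only [bil_add_left, bil_smul_left, bil_lc, dotProduct, Fin.tail, Fin.cons_zero,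
      Fin.cons_succ, mul_comm] using this
  by_contra k
  have h6 := mul_nonneg (sq_nonneg (c 0)) (not_lt.1 k)
  by_cases q : Fin.tail c = 0
  · have h7 : c 0 ≠ 0 := fun w => h2 (funext (Fin.cases w (congrFun q)))
    have := h5 (by simp [q, lc, h7, hx])
    simp [q, lc, bil_zero_left] at this
    linarith
  · have h7 := h _ q
    linarith [h5 fun w => by rw [w, bil_zero_left] at h4; linarith]

theorem Pos.eq_zero (hG : ∀ i j, G i j = G j i) (hs : Sig G 3) (ha : Pos G a) (hb : Pos G b)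
    {c : Fin 3 → ℝ} (h : ∀ i, bil G (a i) (lc c b) = 0) : c = 0 := by_contra fun k =>
  (hb c k).not_gt (ha.neg hG hs (fun w => by simpa [w, bil_zero_left] using hb c k) h)

theorem Pos.det_ne (hG : ∀ i j, G i j = G j i) (hs : Sig G 3) (ha : Pos G a) (hb : Pos G b) :
    (gram G a b).det ≠ 0 := fun k => by
  obtain ⟨c, h1, h2⟩ := exists_mulVec_eq_zero_iff.2 k
  exact h1 (ha.eq_zero hG hs hb fun i => by
    rw [bil_lc', dotProduct_comm]; exact congrFun h2 i)

theorem Pos.orth (hG : ∀ i j, G i j = G j i) (h : Pos G ![x, y, z]) (h1 : bil G x p = 0)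
    (h2 : bil G y p = 0) (h3 : 0 < bil G p p) : Pos G ![x, y, p] := fun c hc => by
  have h4 : bil G (lc c ![x, y, p]) (lc c ![x, y, p]) =
      bil G (lc ![c 0, c 1, 0] ![x, y, z]) (lc ![c 0, c 1, 0] ![x, y, z]) + c 2 ^ 2 * bil G p p := by
    simp [lc_three, bil_add_left, bil_add_right, bil_smul_left, bil_smul_right, h1, h2,
      bil_symm G hG p]
    ring
  rw [h4]
  by_cases k : ![c 0, c 1, 0] = 0
  · have h5 : c 2 ≠ 0 := fun w => hc (by
      funext i; fin_cases i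
      exacts [congrFun k 0, congrFun k 1, w])
    rw [k]; simp [lc, bil_zero_left, h3, sq_pos_iff.2 h5]
  · exact add_pos_of_pos_of_nonneg (h _ k) (by positivity)

/-- countably many proper subspaces do not cover the space -/
theorem avoid {κ : Type} [Countable κ] (W : κ → Submodule ℝ (Fin 3 → ℝ)) (h : ∀ k, W k ≠ ⊤) :
    ∃ c, ∀ k, c ∉ W k :=
  (ae_all_iff.2 fun k => measure_eq_zero_iff_ae_notMem.1
    (Measure.addHaar_submodule volume (W k) (h k))).exists

theorem det_frame {m n : Fin 3 → ℝ} (hm : m ≠ 0) (hn : n ≠ 0) (h : n ⬝ᵥ m = 0) :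
    (Matrix.of ![n ⨯₃ m, m, n]).det ≠ 0 := by
  have h1 : (Matrix.of ![n ⨯₃ m, m, n]).det = -((m ⬝ᵥ m) * (n ⬝ᵥ n) - (n ⬝ᵥ m) ^ 2) := by
    simp [det_fin_three, crossProduct, dotProduct, Fin.sum_univ_three]; ring
  rw [h1, h]
  simpa using ⟨hm, hn⟩

/-- **any two positive triples without orthogonal roots are joined by a chain of moves** -/
theorem chain (hG : ∀ i j, G i j = G j i) (hs : Sig G 3) (S : (Fin 3 → ι → ℝ) → Prop)
    (hA : ∀ a A, A.det ≠ 0 → S a → S (mul A a))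
    (hM : ∀ a b, Pos G a → Pos G b → b 0 = a 0 → b 1 = a 1 → 0 < (gram G a b).det →
      (∀ d : ι → ℤ, bil G d d = -2 → bil G (a 0) (cs ℝ d) = 0 → bil G (a 1) (cs ℝ d) ≠ 0) →
      S a → S b) (ha : Pos G a) (hb : Pos G b) (fa : Free G a) (fb : Free G b) (h : S a) : S b := by
  have mv : ∀ x y z p, Pos G ![x, y, z] → Pos G ![x, y, p] → (∀ d : ι → ℤ, bil G d d = -2 →
      bil G x (cs ℝ d) = 0 → bil G y (cs ℝ d) ≠ 0) → S ![x, y, z] → S ![y, p, x] := by
    intro x y z p h1 h2 h3 h4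
    have e : ∀ s : ℝ, mul !![0, 1, 0; 0, 0, s; 1, 0, 0] ![x, y, s • p] = ![y, (s * s) • p, x] :=
      fun s => by funext i; fin_cases i <;> simp [mul, lc_three, smul_smul]
    rcases lt_or_gt_of_ne (h1.det_ne hG hs h2) with k | k
    · have e' : mul !![1, 0, 0; 0, 1, 0; 0, 0, -1] ![x, y, p] = ![x, y, (-1 : ℝ) • p] := by
        funext i; fin_cases i <;> simp [mul, lc_three]
      have := hA _ !![0, 1, 0; 0, 0, -1; 1, 0, 0] (by simp [det_fin_three]) (hM _ ![x, y, (-1 : ℝ) • p]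
        h1 (e' ▸ h2.mul (by simp [det_fin_three])) rfl rfl (by
          simp [gram, det_fin_three, bil_neg_right] at k ⊢; linarith) h3 h4)
      simpa only [e, neg_mul_neg, mul_one, one_smul] using this
    · have := hA _ !![0, 1, 0; 0, 0, 1; 1, 0, 0] (by simp [det_fin_three]) (hM _ _ h1 h2 rfl rfl k h3 h4)
      simpa only [mul_one, one_smul] using (e 1 ▸ (one_smul ℝ p).symm ▸ this :)
  have hM := ha.det_ne hG hs hb
  obtain ⟨c, hc⟩ := avoid (κ := Option ({d : ι → ℤ // bil G d d = -2} × Bool)) (fun k => k.elim ⊥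
    fun k => cond k.2 (LinearMap.ker (dotProductBilin ℝ ℝ fun j => bil G (a j) (cs ℝ k.1.1)))
      ((ℝ ∙ fun j => bil G (b j) (cs ℝ k.1.1)).comap (gram G a b).vecMulLinear)) (by
    rintro (_ | ⟨d, _ | _⟩)
    · exact bot_ne_top
    · intro k
      have h1 := Submodule.map_comap_le (gram G a b).vecMulLinear (ℝ ∙ fun j => bil G (b j) (cs ℝ d.1))
      rw [show Submodule.comap _ _ = ⊤ from k, Submodule.map_top, LinearMap.range_eq_top.2
        (vecMul_surjective_iff_isUnit.2 ((isUnit_iff_isUnit_det _).2 hM.isUnit))] at h1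
      have h2 := (Submodule.finrank_mono h1).trans (finrank_span_le_card _)
      simp at h2
    · intro k
      obtain ⟨i, hi⟩ := fa d.1 d.2
      simpa [hi] using (show LinearMap.ker _ = ⊤ from k).ge (Submodule.mem_top (x := Pi.single i 1)))
  have c0 : c ≠ 0 := hc none
  have m0 : c ᵥ* gram G a b ≠ 0 := fun k => c0 (eq_zero_of_vecMul_eq_zero hM k)
  obtain ⟨q, q0, hq⟩ := exists_ne_zero_dotProduct_eq_zero (c ᵥ* gram G a b)
  have hz : ∀ d : ι → ℤ, bil G d d = -2 → bil G (lc c a) (cs ℝ d) ≠ 0 := fun d hd k =>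
    hc (some (⟨d, hd⟩, true)) (by simpa [bil_lc, dotProduct_comm c] using k)
  have e1 : ∀ c q, bil G (lc c a) (lc q b) = q ⬝ᵥ (c ᵥ* gram G a b) := fun c q => by
    simp only [bil_lc', bil_lc, vecMul, gram]; rfl
  have n0 : gram G a b *ᵥ q ≠ 0 := fun k => q0 (eq_zero_of_mulVec_eq_zero hM k)
  have e2 : ∀ c, bil G (lc c a) (lc q b) = c ⬝ᵥ gram G a b *ᵥ q := fun c => by
    rw [e1, dotProduct_mulVec, dotProduct_comm]
  have h0 : bil G (lc c a) (lc q b) = 0 := (e1 _ _).trans hq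
  have d1 := det_frame c0 n0 (by rw [dotProduct_comm, ← e2, h0])
  have d2 := det_frame q0 m0 (by rw [dotProduct_comm, hq])
  set m := c ᵥ* gram G a b
  set n := gram G a b *ᵥ q
  have f1 : ∀ (a : Fin 3 → ι → ℝ) u v w, mul (Matrix.of ![u, v, w]) a = ![lc u a, lc v a, lc w a] :=
    fun a u v w => by funext i; fin_cases i <;> rfl
  have p1 := f1 a _ _ _ ▸ ha.mul d1
  have p2 := f1 b _ _ _ ▸ hb.mul d2
  have g1 : bil G (lc c a) (lc (m ⨯₃ q) b) = 0 := by rw [e1, dotProduct_comm, dot_self_cross]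
  have p3 := p1.orth hG (p := lc q b) (by rw [e2, dotProduct_comm, dot_self_cross]) h0 (hb q q0)
  have p4 := p2.orth hG (p := lc c a) (by rw [bil_symm G hG, g1]) (by rw [bil_symm G hG, h0])
    (ha c c0)
  have sw : ∀ x y z : ι → ℝ, mul !![0, 0, 1; 0, 1, 0; 1, 0, 0] ![x, y, z] = ![z, y, x] :=
    fun x y z => by funext i; fin_cases i <;> simp [mul, lc_three]
  have cy : ∀ x y z : ι → ℝ, mul !![0, 1, 0; 0, 0, 1; 1, 0, 0] ![x, y, z] = ![y, z, x] :=
    fun x y z => by funext i; fin_cases i <;> simp [mul, lc_three]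
  have p5 := sw _ _ _ ▸ p4.mul (A := !![0, 0, 1; 0, 1, 0; 1, 0, 0]) (by simp [det_fin_three])
  have s1 := mv _ _ _ _ p1 p3 (fun d hd _ => hz d hd) (f1 a _ _ _ ▸ hA _ _ d1 h)
  have s2 := mv _ _ _ _ (cy _ _ _ ▸ p3.mul (by simp [det_fin_three])) p5
    (fun d hd k => (hz d hd k).elim) s1
  have t : ∀ x y z : ι → ℝ, mul !![0, 1, 0; 1, 0, 0; 0, 0, 1] ![x, y, z] = ![y, x, z] :=
    fun x y z => by funext i; fin_cases i <;> simp [mul, lc_three]
  have s3 := mv _ _ _ _ p4 p2 (fun d hd k1 k2 => hc (some (⟨d, hd⟩, false)) ?_)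
    (t _ _ _ ▸ hA _ _ (by simp [det_fin_three]) s2)
  · have c1 : (!![0, 1, 0; 0, 0, 1; 1, 0, 0] : Matrix (Fin 3) (Fin 3) ℝ).det ≠ 0 := by
      simp [det_fin_three]
    have s4 := hA _ _ (isUnit_nonsing_inv_det _ d2.isUnit).ne_zero
      (f1 b _ _ _ ▸ cy _ _ _ ▸ hA _ _ c1 (cy _ _ _ ▸ hA _ _ c1 s3))
    rwa [mul_mul, nonsing_inv_mul _ d2.isUnit, one_mul'] at s4
  · set v := fun j => bil G (b j) (cs ℝ d)
    have m1 : m ⬝ᵥ m ≠ 0 := by simpa using m0
    have h1 := eq_zero_of_mulVec_eq_zero d2 (v := v - (m ⬝ᵥ v / m ⬝ᵥ m) • m) (by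
      rw [bil_lc] at k1 k2
      funext i; fin_cases i
      · show (m ⨯₃ q) ⬝ᵥ _ = 0
        rw [dotProduct_sub, dotProduct_smul, k1, dotProduct_comm (m ⨯₃ q), dot_self_cross]; simp
      · show q ⬝ᵥ _ = 0
        rw [dotProduct_sub, dotProduct_smul, k2, hq]; simp
      · show m ⬝ᵥ _ = 0
        rw [dotProduct_sub, dotProduct_smul, smul_eq_mul, div_mul_cancel₀ _ m1, sub_self])
    obtain ⟨i, hi⟩ := fb d hd
    rw [sub_eq_zero] at h1
    generalize m ⬝ᵥ v / m ⬝ᵥ m = r at h1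
    exact Submodule.mem_span_singleton.2 ⟨r⁻¹, (congrArg _ h1).trans (inv_smul_smul₀
      (fun w => hi (by simpa [w] using congrFun h1 i)) _)⟩

end Vale.Agent.P247K
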