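import Vale.Agent.P247K.Chain
import Vale.Agent.P290Z.Lat.Conf

/-!
# P247K: the double Kummer configuration
-/

open Set Matrix
open Vale.Agent.P290.H726 Vale.Agent.P290Z.Lat Vale.Agent.P290Z

namespace Vale.Agent.P247K

variable {ι : Type} [Fintype ι] [DecidableEq ι] {G : Matrix ι ι ℤ}

/-- the configuration of the 24 curves on the Kummer surface of a product, with generic
periods `b 0`, `b 1` and the class `b 2 = h` of degree one on the 24 curves -/
structure DK (G : Matrix ι ι ℤ) where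
  F : ι → ℤ
  F' : ι → ℤ
  m : ι → ℤ
  d : Fin 4 → Fin 4 → ι → ℤ
  C : Fin 4 → ι → ℤ
  D : Fin 4 → ι → ℤ
  b : Fin 3 → ι → ℝ
  dd : ∀ i j i' j', bil G (d i j) (d i' j') = if i = i' ∧ j = j' then -2 else 0
  CC : ∀ i i', bil G (C i) (C i') = if i = i' then -2 else 0
  DD : ∀ j j', bil G (D j) (D j') = if j = j' then -2 else 0
  CD : ∀ i j, bil G (C i) (D j) = 0
  Cd : ∀ i i' j, bil G (C i) (d i' j) = if i = i' then 1 else 0
  Dd : ∀ j i j', bil G (D j) (d i j') = if j = j' then 1 else 0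
  hF : ∀ i, (2 : ℤ) • C i + ∑ j, d i j = F
  hF' : ∀ j, (2 : ℤ) • D j + ∑ i, d i j = F'
  hm : (2 : ℤ) • m = ∑ i, ∑ j, d i j
  b2 : b 2 = cs ℝ ((3 : ℤ) • F + (3 : ℤ) • F' - m)
  gr : gram G b b = diagonal ![4 * √2, 4 * √2, 28]
  free : Free G b
  ns : ∀ x : ι → ℤ, (bil G (b 0) (cs ℝ x) = 0 ∧ bil G (b 1) (cs ℝ x) = 0) ↔
    (2 : ℤ) • x = bil G x F' • F + bil G x F • F' - ∑ i, ∑ j, bil G x (d i j) • d i j
  kum : ∀ x : ι → ℤ, bil G x x = -2 → bil G (b 0) (cs ℝ x) = 0 → bil G (b 1) (cs ℝ x) = 0 →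
    bil G x F = 0 → bil G x F' = 0 → ∃ i j, x = d i j ∨ x = -d i j

namespace M

open N

def ix (i j : Fin 4) : Fin 16 := ⟨i + 4 * j, by omega⟩

def C (i : Fin 4) (k : Fin 22) : ℤ := (u 0 k - ∑ j, e (ix i j) k) / 2

def D (j : Fin 4) (k : Fin 22) : ℤ := (w 0 k - ∑ i, e (ix i j) k) / 2

def h : Fin 22 → ℤ := (3 : ℤ) • u 0 + (3 : ℤ) • w 0 - m16

noncomputable def b : Fin 3 → Fin 22 → ℝ :=
  ![cs ℝ (u 1) + √2 • cs ℝ (w 1), cs ℝ (u 2) + √2 • cs ℝ (w 2), cs ℝ h]

theorem sum_ix {R : Type} [AddCommMonoid R] (f : Fin 16 → R) :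
    ∑ a, f a = ∑ i, ∑ j, f (ix i j) := by
  simp only [Fin.sum_univ_succ, Finset.univ_eq_empty, Finset.sum_empty, add_zero]
  show f 0 + (f 1 + (f 2 + (f 3 + (f 4 + (f 5 + (f 6 + (f 7 + (f 8 + (f 9 + (f 10 + (f 11 +
    (f 12 + (f 13 + (f 14 + f 15)))))))))))))) = f 0 + (f 4 + (f 8 + f 12)) + (f 1 + (f 5 +
    (f 9 + f 13)) + (f 2 + (f 6 + (f 10 + f 14)) + (f 3 + (f 7 + (f 11 + f 15)))))
  abel

theorem hF : ∀ i k, 2 * C i k + ∑ j, e (ix i j) k = u 0 k := by decide +kernel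

theorem hF' : ∀ j k, 2 * D j k + ∑ i, e (ix i j) k = w 0 k := by decide +kernel

theorem ix_inj : ∀ i j i' j', ix i j = ix i' j' ↔ i = i' ∧ j = j' := by decide +kernel

theorem ix_surj : ∀ a, ∃ i j, a = ix i j := by decide +kernel

theorem CC : ∀ i i', bil G0 (C i) (C i') = if i = i' then -2 else 0 := by decide +kernel

theorem DD : ∀ i i', bil G0 (D i) (D i') = if i = i' then -2 else 0 := by decide +kernel

theorem CD : ∀ i j, bil G0 (C i) (D j) = 0 := by decide +kernel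

theorem Cd : ∀ i i' j, co (C i) (ie (ix i' j)) = if i = i' then -1 else 0 := by decide +kernel

theorem Dd : ∀ j i j', co (D j) (ie (ix i j')) = if j = j' then -1 else 0 := by decide +kernel

theorem hh : bil G0 h h = 28 := by decide +kernel

theorem co_h : ∀ l, co h l = if l = 0 ∨ l = 3 then 6 else if l.val < 6 then 0 else -1 := by
  decide +kernel

theorem irr {p q : ℤ} (h : (p : ℝ) + √2 * q = 0) : p = 0 ∧ q = 0 := by
  have h1 : q = 0 := by_contra fun k => (irrational_sqrt_two.mul_intCast k).ne_int (-p)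
    (by push_cast; linarith)
  exact ⟨by simpa [h1] using h, h1⟩

theorem b_orth (x : Fin 22 → ℤ) : (bil G0 (b 0) (cs ℝ x) = 0 ∧ bil G0 (b 1) (cs ℝ x) = 0) ↔
    (x 4 = 0 ∧ x 1 = 0) ∧ x 5 = 0 ∧ x 2 = 0 := by
  have e : ∀ i, bil G0 (cs ℝ (u i) + √2 • cs ℝ (w i)) (cs ℝ x) =
      x (iw i) + √2 * x (iu i) := fun i => by
    rw [bil_add_left, bil_smul_left, bil_cs, bil_cs, bil_symm _ G0_symm, bil_u',
      bil_symm _ G0_symm, bil_w', co_low _ _ (by simp only [iw]; omega),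
      co_low _ _ (by simp only [iu]; omega)]
  show _ = 0 ∧ _ = 0 ↔ _
  rw [show b 0 = _ from rfl, show b 1 = _ from rfl]
  simp only [b, cons_val_zero, cons_val_one, e]
  exact ⟨fun h => ⟨irr h.1, irr h.2⟩, fun h => by
    simp [show iw 1 = 4 from rfl, show iw 2 = 5 from rfl, show iu 1 = 1 from rfl,
      show iu 2 = 2 from rfl, h.1.1, h.1.2, h.2.1, h.2.2]⟩

theorem kum (x : Fin 22 → ℤ) (hx : bil G0 x x = -2) (h0 : (x 4 = 0 ∧ x 1 = 0) ∧ x 5 = 0 ∧ x 2 = 0)
    (h1 : x 3 = 0) (h2 : x 0 = 0) : ∃ a, x = e a ∨ x = -e a :=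
  root_K x (fun i => by
    rw [bil_u', co_low _ _ (by simp only [iw]; omega)]
    fin_cases i; exacts [h1, h0.1.1, h0.2.1]) (fun i => by
    rw [bil_w', co_low _ _ (by simp only [iu]; omega)]
    fin_cases i; exacts [h2, h0.1.2, h0.2.2]) hx

theorem free : Free G0 b := fun x hx => by_contra fun k => by
  push Not at k
  have h0 := (b_orth x).1 ⟨k 0, k 1⟩
  have h1 : bil G0 h x = 0 := by exact_mod_cast (bil_cs G0 h x).symm.trans (k 2)
  have l : ∀ i : Fin 3, co x (iu i) = x (iu i) ∧ co x (iw i) = x (iw i) := fun i =>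
    ⟨co_low _ _ (by simp only [iu]; omega), co_low _ _ (by simp only [iw]; omega)⟩
  have h2 := two_bil h x
  have h3 := two_bil x x
  simp only [h1, hx, co_h, Fin.sum_univ_three, l, show iw 0 = 3 from rfl, show iw 1 = 4 from rfl,
    show iw 2 = 5 from rfl, show iu 0 = 0 from rfl, show iu 1 = 1 from rfl, show iu 2 = 2 from rfl,
    h0, (by decide : ∀ a, ¬(ie a = 0 ∨ ie a = 3)), (by decide : ∀ a, ¬(ie a).val < 6)] at h2 h3
  simp at h2 h3
  have h4 := sq_sum_le_card_mul_sum_sq (s := Finset.univ) (f := fun a => co x (ie a))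
  have h5 : |∑ a, co x (ie a)| ≤ ∑ a, co x (ie a) * co x (ie a) :=
    (Finset.abs_sum_le_sum_abs _ _).trans (Finset.sum_le_sum fun a _ => by
      rw [← sq, ← sq_abs]; exact Int.le_self_sq _)
  simp only [sq, Finset.card_univ, Fintype.card_fin, Nat.cast_ofNat] at h4
  have h6 : 4 ≤ ∑ a, co x (ie a) * co x (ie a) ∨ x 3 % 2 = 0 := or_iff_not_imp_right.2 fun q => by
    rw [sum_ix]
    refine le_trans (by simp) (Finset.sum_le_sum fun i _ => show 1 ≤ _ from by_contra fun w => q ?_)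
    have a1 := (Finset.sum_eq_zero_iff_of_nonneg fun j _ => mul_self_nonneg (co x (ie (ix i j)))).1
      (le_antisymm (Int.lt_add_one_iff.1 (not_le.1 w)) (Finset.sum_nonneg fun _ _ =>
        mul_self_nonneg _))
    have a2 := bil_u' x 0
    rw [← funext (hF i), show (fun k => 2 * C i k + ∑ j, e (ix i j) k) =
      (2 : ℤ) • C i + ∑ j, e (ix i j) by funext k; simp, bil_add_right, bil_smul_right,
      bil_sum_right, (l 0).2] at a2
    simp only [bil_e', fun j => mul_self_eq_zero.1 (a1 j (Finset.mem_univ j))] at a2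
    simp only [show iw 0 = 3 from rfl, neg_zero, Finset.sum_const_zero] at a2
    omega
  by_cases q : x 3 = 0 ∧ x 0 = 0
  · obtain ⟨a, ha | ha⟩ := kum x hx h0 q.1 q.2 <;> rw [ha] at h1 <;>
      simp [bil_neg_right, bil_e', co_h, (by decide : ∀ a, ¬(ie a = 0 ∨ ie a = 3)),
        (by decide : ∀ a, ¬(ie a).val < 6)] at h1
  generalize ∑ a, co x (ie a) = s at *
  generalize ∑ a, co x (ie a) * co x (ie a) = t at *
  generalize x 3 = p at *
  generalize x 0 = r at *
  have h7 : p + r ≤ 1 := by nlinarith [sq_nonneg (p - r)]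
  have h8 : -1 ≤ p + r := by nlinarith [sq_nonneg (p - r)]
  have h9 := abs_le.1 h5
  have h10 : p * r ≤ 0 := by nlinarith [sq_nonneg (p - r)]
  have h11 : r = -p := by nlinarith
  subst h11
  have h12 : p ≤ 1 := by nlinarith
  have h13 : -1 ≤ p := by nlinarith
  interval_cases p <;> omega

/-- the configuration in the model -/
noncomputable def dk : DK G0 where
  F := u 0
  F' := w 0
  m := m16
  d i j := e (ix i j)
  C := C
  D := D
  b := b
  dd i j i' j' := by simp only [e_e, ix_inj]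
  CC := CC
  DD := DD
  CD := CD
  Cd i i' j := by rw [bil_e', Cd]; split_ifs <;> rfl
  Dd i i' j := by rw [bil_e', Dd]; split_ifs <;> rfl
  hF i := funext fun k => by simpa using hF i k
  hF' i := funext fun k => by simpa using hF' i k
  hm := funext fun k => by simpa using (two_m16 k).trans (sum_ix _)
  b2 := rfl
  gr := by
    have h1 : ∀ i : Fin 3, i ≠ 0 → bil G0 h (u i) = 0 ∧ bil G0 h (w i) = 0 := by decide +kernel
    have h2 : √2 * √2 = 2 := Real.mul_self_sqrt zero_le_two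
    ext i j
    fin_cases i <;> fin_cases j <;> simp [gram, b, bil_add_left, bil_add_right, bil_smul_left,
      bil_smul_right, bil_cs, N.kum.uu, N.kum.ww, N.kum.uw, Top.Cf.wu, hh, h1, bil_symm _ G0_symm _ h] <;>
      ring
  free := free
  ns x := by
    rw [b_orth]
    have l : ∀ i : Fin 3, co x (iu i) = x (iu i) ∧ co x (iw i) = x (iw i) := fun i =>
      ⟨co_low _ _ (by simp only [iu]; omega), co_low _ _ (by simp only [iw]; omega)⟩
    simp only [bil_u', bil_w', bil_e', l]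
    refine ⟨fun h => funext fun k => ?_, fun h => ?_⟩
    · have := two_mul_eq x k
      rw [sum22, sum_ix] at this
      simp only [Fin.sum_univ_three, l, show iw 1 = 4 from rfl, show iw 2 = 5 from rfl,
        show iu 1 = 1 from rfl, show iu 2 = 2 from rfl, h] at this
      simpa [u, w, e] using this
    · have h1 : ∀ a, e a 4 = 0 ∧ e a 1 = 0 ∧ e a 5 = 0 ∧ e a 2 = 0 := by decide +kernel
      have h2 : (u 0 4 = 0 ∧ u 0 1 = 0 ∧ u 0 5 = 0 ∧ u 0 2 = 0) ∧
        w 0 4 = 0 ∧ w 0 1 = 0 ∧ w 0 5 = 0 ∧ w 0 2 = 0 := by decide +kernel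
      exact ⟨⟨by simpa [h1, h2] using congrFun h 4, by simpa [h1, h2] using congrFun h 1⟩,
        by simpa [h1, h2] using congrFun h 5, by simpa [h1, h2] using congrFun h 2⟩
  kum x hx h0 h1 h2 h3 := by
    rw [bil_u', co_low _ _ (by decide)] at h2
    rw [bil_w', co_low _ _ (by decide)] at h3
    obtain ⟨a, ha⟩ := kum x hx ((b_orth x).1 ⟨h0, h1⟩) h2 h3
    obtain ⟨i, j, rfl⟩ := ix_surj a
    exact ⟨i, j, ha⟩

end M

end Vale.Agent.P247K
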